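import Vale.Agent.P068.ZFC.Graph

open Set
open scoped Matroid

namespace Vale.Agent.Results.P068.ZFCDisproof

open Vale.Agent.P068

/-- The packing/covering conjecture and the matroid intersection conjecture are both false,
already for countable ground sets. -/
theorem result :
    (¬ ∀ (α Θ : Type) [Countable α] [Finite Θ] (E : Set α) (M : Θ → Matroid α),
        (∀ i, (M i).E = E) → HasPackingCovering E M) ∧
    (¬ ∀ (α : Type) [Countable α] (M N : Matroid α), M.E = N.E →
        SatisfiesIntersection M N) := by
  obtain ⟨M, N, hM, hN, hMN⟩ := ZFC.exists_counterexample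
  have hE : M.E = N.E := hM.trans hN.symm
  refine ⟨fun h => ?_, fun h => hMN (h Elt M N hE)⟩
  refine hMN (satisfiesIntersection_of_packingCovering M N hE (h Elt Bool M.E _ ?_))
  intro i
  cases i
  · simp [hE]
  · simp

end Vale.Agent.Results.P068.ZFCDisproof
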